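import Vale.Agent.P240.R2.H458.PD
import Vale.Agent.P240.R2.H296.OForm

/-!
Block (S5) of P4d: the similarity with factor `2` of the form `x_0^2 + ... + x_5^2` over `ZMod 5`
gives an automorphism of `PΩ_6^+(5)`.
-/

set_option autoImplicit false
set_option linter.all false

namespace Vale.Agent.P240.R2.H179.Tau6

open Matrix Subgroup
open Vale.Agent.P240.R2.H145.EO (B ac OD rf rf_mem ac_mul ac_add ac_neg ac_smul ac_inv' B_smul_left
  B_smul_right)
open Vale.Agent.P240.R2.H406 (Lam Phi sg rfl' act act_ext act_rfl')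
open Vale.Agent.P240.R2.H458 (a1 StmtTau6)
open Vale.Agent.P240.R2.OF (map_center map_comm commCongr)

noncomputable section

/-- the map `x ↦ (x_0 + x_1, x_0 - x_1, x_2 + x_3, x_2 - x_3, x_4 + x_5, x_4 - x_5)` -/
def tv (x : Fin 6 → ZMod 5) : Fin 6 → ZMod 5 :=
  ![x 0 + x 1, x 0 - x 1, x 2 + x 3, x 2 - x 3, x 4 + x 5, x 4 - x 5]

/-- its matrix -/
def tM : Matrix (Fin 6) (Fin 6) (ZMod 5) :=
  !![1, 1, 0, 0, 0, 0; 1, -1, 0, 0, 0, 0; 0, 0, 1, 1, 0, 0; 0, 0, 1, -1, 0, 0;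
    0, 0, 0, 0, 1, 1; 0, 0, 0, 0, 1, -1]

lemma tM_mul : tM * ((3 : ZMod 5) • tM) = 1 := by decide

lemma tM_mul' : ((3 : ZMod 5) • tM) * tM = 1 := by decide

/-- the similarity -/
def tG : GL (Fin 6) (ZMod 5) := ⟨tM, (3 : ZMod 5) • tM, tM_mul, tM_mul'⟩

lemma ac_tG (x : Fin 6 → ZMod 5) : ac tG x = tv x := by
  funext i
  show (tM *ᵥ x) i = _
  fin_cases i <;> simp [tM, tv, Matrix.mulVec, dotProduct, Fin.sum_univ_succ] <;> ring

lemma ac_tGi (x : Fin 6 → ZMod 5) : ac tG⁻¹ x = (3 : ZMod 5) • tv x := by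
  rw [← ac_tG]
  show ((3 : ZMod 5) • tM) *ᵥ x = (3 : ZMod 5) • (tM *ᵥ x)
  rw [Matrix.smul_mulVec]

lemma B_tv (x y : Fin 6 → ZMod 5) : B a1 (tv x) (tv y) = 2 * B a1 x y := by
  unfold B
  simp only [Fin.sum_univ_succ, tv, a1]
  simp
  ring

lemma tG_mem {g : GL (Fin 6) (ZMod 5)} (hg : g ∈ OD a1) : tG * g * tG⁻¹ ∈ OD a1 := by
  intro x y
  rw [ac_mul, ac_mul, ac_mul, ac_mul, ac_tG, ac_tG, B_tv, hg, ac_tGi, ac_tGi, B_smul_left,
    B_smul_right, B_tv]
  have h5 : (5 : ZMod 5) = 0 := by decide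
  linear_combination (7 * B a1 x y) * h5

lemma tG_mem' {g : GL (Fin 6) (ZMod 5)} (hg : g ∈ OD a1) : tG⁻¹ * g * tG ∈ OD a1 := by
  intro x y
  rw [ac_mul, ac_mul, ac_mul, ac_mul, ac_tGi, ac_tGi, B_smul_left, B_smul_right, B_tv, hg, ac_tG,
    ac_tG, B_tv]
  have h5 : (5 : ZMod 5) = 0 := by decide
  linear_combination (7 * B a1 x y) * h5

/-- conjugation by the similarity -/
def thG : ↥(OD a1) ≃* ↥(OD a1) where
  toFun g := ⟨tG * g.1 * tG⁻¹, tG_mem g.2⟩
  invFun g := ⟨tG⁻¹ * g.1 * tG, tG_mem' g.2⟩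
  left_inv g := Subtype.ext (by
    show tG⁻¹ * (tG * g.1 * tG⁻¹) * tG = g.1
    group)
  right_inv g := Subtype.ext (by
    show tG * (tG⁻¹ * g.1 * tG) * tG⁻¹ = g.1
    group)
  map_mul' g h := Subtype.ext (by
    show tG * (g.1 * h.1) * tG⁻¹ = (tG * g.1 * tG⁻¹) * (tG * h.1 * tG⁻¹)
    group)

lemma thG_rfl {x : Fin 6 → ZMod 5} (hx : B a1 x x ≠ 0) : thG (rfl' a1 x) = rfl' a1 (tv x) := by
  have hx' : B a1 (tv x) (tv x) ≠ 0 := by
    rw [B_tv]
    exact mul_ne_zero (by decide) hx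
  refine act_ext fun y => ?_
  rw [act_rfl' hx']
  show ac (tG * (rfl' a1 x).1 * tG⁻¹) y = _
  rw [ac_mul, ac_mul]
  have h1 : ac (rfl' a1 x).1 (ac tG⁻¹ y) = _ := act_rfl' hx (ac tG⁻¹ y)
  rw [h1]
  have h2 : ∀ u v : Fin 6 → ZMod 5, ac tG (u - v) = ac tG u - ac tG v := by
    intro u v
    rw [sub_eq_add_neg, ac_add, ac_neg, ← sub_eq_add_neg]
  rw [h2, ac_inv', ac_smul, ac_tG]
  congr 2
  have h3 : 2 * B a1 x (ac tG⁻¹ y) = B a1 (tv x) y := by
    rw [← B_tv, ← ac_tG (ac tG⁻¹ y), ac_inv']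
  have h4 : (2 : ZMod 5) ≠ 0 := by decide
  rw [h3, B_tv, mul_div_mul_comm, ← mul_div_assoc]
  field_simp

end

section gen
variable {G : Type*} [Group G]

lemma commCongr_conj (e : MulAut G) (g : G) :
    (show MulAut ↥(commutator (G ⧸ Subgroup.center G)) from commCongr e) *
      MulAut.conjNormal (H := commutator (G ⧸ Subgroup.center G))
        (QuotientGroup.mk' (Subgroup.center G) g) *
      (show MulAut ↥(commutator (G ⧸ Subgroup.center G)) from commCongr e)⁻¹ =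
    MulAut.conjNormal (H := commutator (G ⧸ Subgroup.center G))
        (QuotientGroup.mk' (Subgroup.center G) (e g)) := by
  rw [mul_inv_eq_iff_eq_mul]
  refine MulEquiv.ext fun x => Subtype.ext ?_
  show QuotientGroup.congr (Subgroup.center G) (Subgroup.center G) e (map_center e)
      ((QuotientGroup.mk' (Subgroup.center G) g) * x.1 * (QuotientGroup.mk' (Subgroup.center G) g)⁻¹) =
    (QuotientGroup.mk' (Subgroup.center G) (e g)) *
      QuotientGroup.congr (Subgroup.center G) (Subgroup.center G) e (map_center e) x.1 *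
      (QuotientGroup.mk' (Subgroup.center G) (e g))⁻¹
  rw [map_mul, map_mul, map_inv]
  rfl

end gen

/-- (S5) the automorphism of the similarity -/
theorem stmtTau6 : StmtTau6 := by
  refine ⟨(show MulAut (Lam a1) from commCongr thG), fun x hx => ?_⟩
  have h := commCongr_conj (show MulAut ↥(OD a1) from thG) (rfl' a1 x)
  have h1 : (show MulAut ↥(OD a1) from thG) (rfl' a1 x) = rfl' a1 (tv x) := thG_rfl hx
  rw [h1] at h
  exact h

end Vale.Agent.P240.R2.H179.Tau6
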