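import Vale.Agent.P240.R2.H315.Defs

/-!
Real lines of the hermitian space over the field with `25` elements: vectors and letters.
-/

set_option autoImplicit false
set_option linter.all false

namespace Vale.Agent.P240.R2.H179

open Matrix Vale.Agent.P240.R2.AS Vale.Agent.P240.R2.H38 Vale.Agent.P240.R2.H584
open Vale.Agent.P240.R2.H315
open scoped Classical

universe u

noncomputable section

section field
variable {K : Type u} [Field K] [Fintype K] [StarRing K] {ρ : K}

lemma five (h : F25 K ρ) : (5 : K) = 0 := by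
  have h1 : ((Nat.card K : ℕ) : K) = 0 := by
    rw [Nat.card_eq_fintype_card]
    exact Nat.cast_card_eq_zero K
  rw [h.card, Nat.cast_pow] at h1
  exact_mod_cast eq_zero_of_pow_eq_zero h1

lemma two_ne (h : F25 K ρ) : (2 : K) ≠ 0 := by
  intro h2
  have h5 := five h
  apply one_ne_zero (α := K)
  linear_combination h5 - 2 * h2

lemma rho3 (h : F25 K ρ) : ρ ^ 3 = -1 := by
  have h1 := h.rho
  linear_combination (ρ + 1) * h1

lemma rho_ne (h : F25 K ρ) : ρ ≠ 0 := by
  intro h0
  have h1 := rho3 h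
  rw [h0] at h1
  apply one_ne_zero (α := K)
  linear_combination h1

lemma star_rho (h : F25 K ρ) : star ρ = 1 - ρ := by
  rw [h.star]
  have h1 := h.rho
  linear_combination (ρ ^ 3 + ρ ^ 2 - 1) * h1

lemma rho_ne_one (h : F25 K ρ) : ρ ≠ 1 := by
  intro h0
  have h1 := h.rho
  rw [h0] at h1
  apply one_ne_zero (α := K)
  linear_combination h1

lemma rho_ne_two (h : F25 K ρ) : ρ ≠ 2 := by
  intro h0
  have h1 := h.rho
  rw [h0] at h1
  have h5 := five h
  apply one_ne_zero (α := K)
  linear_combination 2 * h1 - h5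

lemma rho2_ne_one (h : F25 K ρ) : ρ * ρ ≠ 1 := by
  intro h0
  have h1 := h.rho
  apply rho_ne_two h
  linear_combination h0 - h1

lemma rho2_ne_rho (h : F25 K ρ) : ρ * ρ ≠ ρ := by
  intro h0
  have h1 := h.rho
  apply one_ne_zero (α := K)
  linear_combination h1 - h0

/-- a square root of `2` -/
def al (ρ : K) : K := 2 * ρ - 1

lemma al_sq (h : F25 K ρ) : al ρ * al ρ = 2 := by
  have h1 := h.rho
  have h5 := five h
  unfold al
  linear_combination 4 * h1 - h5

lemma star_al (h : F25 K ρ) : star (al ρ) = - al ρ := by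
  unfold al
  rw [star_sub, star_mul', star_rho h, star_one, star_ofNat]
  ring

/-- the elements of the prime field -/
lemma real_cases (h : F25 K ρ) {p : K} (hp : star p = p) :
    p = 0 ∨ p = 1 ∨ p = 2 ∨ p = 3 ∨ p = 4 := by
  rw [h.star] at hp
  have h5 := five h
  have h1 : p * ((p - 1) * ((p - 2) * ((p - 3) * (p - 4)))) = 0 := by
    linear_combination hp + (-2 * p ^ 4 + 7 * p ^ 3 - 10 * p ^ 2 + 5 * p) * h5
  rcases mul_eq_zero.1 h1 with h2 | h1
  · exact Or.inl h2
  rcases mul_eq_zero.1 h1 with h2 | h1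
  · exact Or.inr (Or.inl (sub_eq_zero.1 h2))
  rcases mul_eq_zero.1 h1 with h2 | h1
  · exact Or.inr (Or.inr (Or.inl (sub_eq_zero.1 h2)))
  rcases mul_eq_zero.1 h1 with h2 | h1
  · exact Or.inr (Or.inr (Or.inr (Or.inl (sub_eq_zero.1 h2))))
  · exact Or.inr (Or.inr (Or.inr (Or.inr (sub_eq_zero.1 h1))))

/-- the squares -/
lemma sq_cases (h : F25 K ρ) {p : K} (hp : star p = p) : p * p = 0 ∨ p * p = 1 ∨ p * p = 4 := by
  have h5 := five h
  rcases real_cases h hp with rfl | rfl | rfl | rfl | rfl
  · left; ring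
  · right; left; ring
  · right; right; ring
  · right; right; linear_combination h5
  · right; left; linear_combination 3 * h5

/-- the sign of a type -/
def sg (b : Bool) : K := if b then -1 else 1

lemma sg_not (b : Bool) : (sg (!b) : K) = - sg b := by
  cases b <;> simp [sg]

lemma sg_sq (b : Bool) : (sg b : K) * sg b = 1 := by
  cases b <;> simp [sg]

lemma star_sg (b : Bool) : star (sg b : K) = sg b := by
  cases b <;> simp [sg]

/-- the sign of a type as the cube of the colour -/
lemma col_eq (h : F25 K ρ) (j : Fin 3) {c : K} (hc : c = ρ ^ (j : ℕ)) : H315.col ρ c = some j := by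
  subst hc
  have h1 := rho_ne_one h
  have h2 := rho2_ne_one h
  have h3 := rho2_ne_rho h
  fin_cases j
  · simp [H315.col]
  · simp [H315.col, h1]
  · have e : ρ ^ 2 = ρ * ρ := by ring
    simp [H315.col, e, h2, h3]

lemma eq_of_col {c : K} {j : Fin 3} (h : H315.col ρ c = some j) : c = ρ ^ (j : ℕ) := by
  unfold H315.col at h
  split_ifs at h with h1 h2 h3
  · have := Option.some.inj h; subst this; simpa using h1
  · have := Option.some.inj h; subst this; simpa using h2
  · have := Option.some.inj h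
    subst this
    rw [h3]
    show ρ * ρ = ρ ^ 2
    ring

end field

section vectors
variable {K : Type u} [Field K] [Fintype K] [StarRing K] {ρ : K} {n : ℕ}
variable {s : Matrix (Fin n) (Fin n) K}

/-- a unit vector of a fixed line, multiplied by the sign of the type by `x ↦ s (star x)` -/
structure RV (s : Matrix (Fin n) (Fin n) K) (b : Bool) (P : Ln K n) (x : Fin n → K) : Prop where
  unit : star x ⬝ᵥ x = 1
  eq : P.1 = vecMulVec x (star x)
  real : s *ᵥ star x = (sg b : K) • x

lemma star_dot (x y : Fin n → K) : star (star x ⬝ᵥ y) = star y ⬝ᵥ x := by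
  rw [dotProduct, star_sum, dotProduct]
  refine Finset.sum_congr rfl fun k _ => ?_
  rw [star_mul', Pi.star_apply, Pi.star_apply, star_star, mul_comm]

/-- the form `s` is symmetric -/
lemma map_star_eq (hs : s ∈ unitaryGroup (Fin n) K) (hr : RForm s) : s.map star = star s := by
  have h1 : star s * s = 1 := Matrix.mem_unitaryGroup_iff'.1 hs
  have h2 : star s * (s * s.map star) = star s * 1 := by rw [hr]
  rwa [← mul_assoc, h1, one_mul, mul_one] at h2

lemma star_mulVec' (A : Matrix (Fin n) (Fin n) K) (x : Fin n → K) :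
    star (A *ᵥ x) = (A.map star) *ᵥ star x := by
  funext i
  rw [Pi.star_apply, mulVec, dotProduct, star_sum, mulVec, dotProduct]
  refine Finset.sum_congr rfl fun k _ => ?_
  rw [star_mul', map_apply, Pi.star_apply]

/-- the hermitian product of the images -/
lemma dot_image (hs : s ∈ unitaryGroup (Fin n) K) (x y : Fin n → K) :
    star (s *ᵥ x) ⬝ᵥ (s *ᵥ y) = star x ⬝ᵥ y := by
  have h1 : star s * s = 1 := Matrix.mem_unitaryGroup_iff'.1 hs
  rw [star_mulVec, ← dotProduct_mulVec, mulVec_mulVec]
  have h2 : sᴴ * s = 1 := h1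
  rw [h2, one_mulVec]

/-- the products of real vectors -/
lemma dot_real (hs : s ∈ unitaryGroup (Fin n) K) {ε ε' : K} (hε : star ε * ε' = 1)
    {x y : Fin n → K} (hx : s *ᵥ star x = ε • x) (hy : s *ᵥ star y = ε' • y) :
    star (star x ⬝ᵥ y) = star x ⬝ᵥ y := by
  have h1 := dot_image hs (star x) (star y)
  rw [hx, hy, star_smul, smul_dotProduct, dotProduct_smul, smul_eq_mul, smul_eq_mul, ← mul_assoc,
    hε, one_mul, star_star] at h1
  rw [star_dot, h1, dotProduct_comm]

/-- `star w ⬝ᵥ (P s (star w))` -/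
lemma kap_eq (hs : s ∈ unitaryGroup (Fin n) K) (hr : RForm s) {ε : K} {x w : Fin n → K}
    (hx : s *ᵥ star x = ε • x) :
    star w ⬝ᵥ ((vecMulVec x (star x) * s) *ᵥ star w) = ε * (star w ⬝ᵥ x) ^ 2 := by
  have h0 : sᵀ = s := by
    have h1 := map_star_eq hs hr
    have h2 : (s.map star).map star = (star s).map star := by rw [h1]
    rw [Matrix.map_map] at h2
    have h3 : s.map (star ∘ star) = s := by ext i j; simp
    rw [h3] at h2
    ext i j
    have h4 := congrFun (congrFun h2 j) i
    simpa [Matrix.star_apply] using h4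
  rw [← mulVec_mulVec, vecMulVec_mulVec]
  have h1 : star x ⬝ᵥ (s *ᵥ star w) = ε * (star w ⬝ᵥ x) := by
    rw [dotProduct_mulVec, ← mulVec_transpose, h0, hx, smul_dotProduct, smul_eq_mul,
      dotProduct_comm]
  rw [h1]
  show star w ⬝ᵥ (MulOpposite.op (ε * (star w ⬝ᵥ x)) • x) = _
  rw [op_smul_eq_smul, dotProduct_smul, smul_eq_mul]
  ring

/-- the value of `w` -/
lemma nrm_eq {x w : Fin n → K} (h : F25 K ρ) :
    star w ⬝ᵥ ((vecMulVec x (star x)) *ᵥ w) = (star w ⬝ᵥ x) ^ 6 := by
  rw [vecMulVec_mulVec]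
  show star w ⬝ᵥ (MulOpposite.op (star x ⬝ᵥ w) • x) = _
  rw [op_smul_eq_smul, dotProduct_smul, smul_eq_mul, ← star_dot w x, h.star]
  ring

/-- every real line has a vector -/
lemma exists_RV (h : F25 K ρ) (hs : s ∈ unitaryGroup (Fin n) K) {P : Ln K n} (hP : rl s P) :
    ∃ b x, RV s b P x := by
  obtain ⟨z, hz, hPz⟩ := P.2
  have hP' : s * P.1.map star * star s = P.1 := hP
  have h1 : s * P.1.map star * star s = vecMulVec (s *ᵥ star z) (star (s *ᵥ star z)) := by
    rw [hPz]
    have h2 : (vecMulVec z (star z)).map star = vecMulVec (star z) (star (star z)) := by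
      ext i j
      simp [vecMulVec_apply]
    rw [h2, mul_vecMulVec, vecMulVec_mul, star_mulVec]
    rfl
  -- `s (star z) = c z`
  have h3 : vecMulVec (s *ᵥ star z) (star (s *ᵥ star z)) = vecMulVec z (star z) := by
    rw [← h1, hP', hPz]
  have hu : star (s *ᵥ star z) ⬝ᵥ (s *ᵥ star z) = 1 := by
    rw [dot_image hs, star_star, dotProduct_comm, hz]
  obtain ⟨c, hc⟩ : ∃ c : K, s *ᵥ star z = c • z := by
    refine ⟨star z ⬝ᵥ (s *ᵥ star z), ?_⟩
    have h4 : vecMulVec (s *ᵥ star z) (star (s *ᵥ star z)) *ᵥ (s *ᵥ star z) =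
      vecMulVec z (star z) *ᵥ (s *ᵥ star z) := by rw [h3]
    rw [vecMulVec_mulVec, vecMulVec_mulVec, hu] at h4
    simpa using h4
  have hcc : c * star c = 1 := by
    rw [hc, star_smul, smul_dotProduct, dotProduct_smul, hz, smul_eq_mul, smul_eq_mul, mul_one] at hu
    rw [mul_comm]
    exact hu
  have hc6 : c ^ 6 = 1 := by
    rw [h.star] at hcc
    linear_combination hcc
  have h5 : c ^ 3 = 1 ∨ c ^ 3 = -1 := by
    have h6 : (c ^ 3 - 1) * (c ^ 3 + 1) = 0 := by linear_combination hc6
    rcases mul_eq_zero.1 h6 with h7 | h7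
    · exact Or.inl (sub_eq_zero.1 h7)
    · exact Or.inr (eq_neg_of_add_eq_zero_left h7)
  obtain ⟨b, hb⟩ : ∃ b, c ^ 3 = (sg b : K) := by
    rcases h5 with h5 | h5
    · exact ⟨false, by rw [h5]; rfl⟩
    · exact ⟨true, by rw [h5]; rfl⟩
  have hst : star c = c ^ 5 := h.star c
  refine ⟨b, (c ^ 2) • z, ?_, ?_, ?_⟩
  · rw [star_smul, smul_dotProduct, dotProduct_smul, hz, smul_eq_mul, smul_eq_mul, mul_one,
      star_pow, hst]
    linear_combination (c ^ 6 + 1) * hc6
  · rw [hPz]
    ext i j
    simp only [vecMulVec_apply, Pi.smul_apply, Pi.star_apply, smul_eq_mul, star_mul', star_pow, hst]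
    linear_combination -((c ^ 6 + 1) * z i * star (z j)) * hc6
  · rw [star_smul, mulVec_smul, hc, smul_smul, smul_smul, star_pow, hst, ← hb]
    congr 1
    linear_combination c ^ 5 * hc6

/-- the letter of a line with a vector -/
lemma ltr_eq (h : F25 K ρ) (hs : s ∈ unitaryGroup (Fin n) K) (hr : RForm s) (w : Fin n → K)
    {b : Bool} {P : Ln K n} {x : Fin n → K} (hx : RV s b P x) (b' : Bool) (j : Fin 3) :
    ltr ρ w s P = some (b', j) ↔ b' = b ∧ sg b * (star w ⬝ᵥ x) ^ 2 = ρ ^ (j : ℕ) := by
  have hk := kap_eq hs hr (w := w) hx.real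
  have hn := nrm_eq (x := x) (w := w) h
  rw [← hx.eq] at hk hn
  unfold ltr
  rw [hk, hn]
  set a := star w ⬝ᵥ x with ha
  have h2 := two_ne h
  have h11 : (1 : K) ≠ -1 := by
    intro h0
    apply h2
    linear_combination h0
  have hcube : ∀ j : Fin 3, sg b * a ^ 2 = ρ ^ (j : ℕ) →
      a ^ 6 = if (xor b (decide (j = 1))) then -1 else 1 := by
    intro j hj
    have h3 : a ^ 6 = sg b * (ρ ^ (j : ℕ)) ^ 3 := by
      rw [← hj]
      linear_combination -(a ^ 6 * (sg b * sg b + 1)) * sg_sq (K := K) b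
    have h4 : (ρ ^ (j : ℕ)) ^ 3 = (-1) ^ (j : ℕ) := by
      rw [← pow_mul, mul_comm, pow_mul, rho3 h]
    rw [h3, h4]
    fin_cases j <;> cases b <;> simp [sg]
  constructor
  · intro hl
    split_ifs at hl with c1 c2
    · obtain ⟨j', hj', hl'⟩ := Option.map_eq_some_iff.1 hl
      have hj2 := eq_of_col hj'
      have h5 := hcube j' hj2
      rw [c1] at h5
      simp only [lc, Prod.mk.injEq] at hl'
      obtain ⟨hl1, rfl⟩ := hl'
      refine ⟨?_, hj2⟩
      rw [← hl1]
      by_cases h6 : (xor b (decide (j' = 1))) = true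
      · rw [if_pos h6] at h5
        exact absurd h5 h11
      · revert h6
        cases b <;> cases hd : decide (j' = 1) <;> simp
    · obtain ⟨j', hj', hl'⟩ := Option.map_eq_some_iff.1 hl
      have hj2 := eq_of_col hj'
      have h5 := hcube j' hj2
      rw [c2] at h5
      simp only [lc, Prod.mk.injEq] at hl'
      obtain ⟨hl1, rfl⟩ := hl'
      refine ⟨?_, hj2⟩
      rw [← hl1]
      by_cases h6 : (xor b (decide (j' = 1))) = true
      · revert h6
        cases b <;> cases hd : decide (j' = 1) <;> simp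
      · rw [if_neg h6] at h5
        exact absurd h5.symm h11
  · rintro ⟨rfl, hj⟩
    have h5 := hcube j hj
    have h6 := col_eq h j hj
    by_cases h7 : (xor b' (decide (j = 1))) = true
    · rw [if_pos h7] at h5
      rw [if_neg (by rw [h5]; exact fun h0 => h11 h0.symm), if_pos h5, h6]
      simp only [Option.map_some, lc, Option.some.injEq, Prod.mk.injEq, and_true]
      revert h7
      cases b' <;> cases hd : decide (j = 1) <;> simp
    · rw [if_neg h7] at h5
      rw [if_pos h5, h6]
      simp only [Option.map_some, lc, Option.some.injEq, Prod.mk.injEq, and_true]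
      revert h7
      cases b' <;> cases hd : decide (j = 1) <;> simp

end vectors

end

end Vale.Agent.P240.R2.H179
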