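import Vale.Agent.P240.R2.H179.U5a1
import Vale.Agent.P240.R2.H275.M4c

/-!
Planes of the hermitian space over the field with `25` elements with a real form.
-/

set_option autoImplicit false
set_option linter.all false

namespace Vale.Agent.P240.R2.H179

open Matrix Vale.Agent.P240.R2.AS Vale.Agent.P240.R2.H38 Vale.Agent.P240.R2.H584
open Vale.Agent.P240.R2.H315
open Vale.Agent.P240.R2.H275 (Ln_idem Ln_star Ln_ne Ln_symm o_append o_one o_perm vv_mul)
open scoped Classical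

universe u

noncomputable section

section frames
variable {K : Type u} [Field K] [Fintype K] [StarRing K] {n : ℕ}
variable {s : Matrix (Fin n) (Fin n) K}

lemma ln_le {P Q P' Q' : Ln K n} (h1 : P'.1 + Q'.1 = P.1 + Q.1) (h0 : P'.1 * Q'.1 = 0) :
    P'.1 = (P.1 + Q.1) * P'.1 := by
  rw [← h1, add_mul, Ln_idem, Ln_symm h0, add_zero]

/-- the pairs of lines in a plane that extend a frame -/
lemma swap_Fr {u v : List (Ln K n)} {P Q : Ln K n} (h : u ++ P :: Q :: v ∈ Fr K n)
    (P' Q' : Ln K n) :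
    u ++ P' :: Q' :: v ∈ Fr K n ↔ P'.1 + Q'.1 = P.1 + Q.1 ∧ P'.1 * Q'.1 = 0 := by
  obtain ⟨hl, ho⟩ := (mem_Fr K).1 h
  constructor
  · intro h'
    obtain ⟨hl', ho'⟩ := (mem_Fr K).1 h'
    have e1 := o_one ho hl
    have e2 := o_one ho' hl'
    rw [H275.sm_append, H275.sm_cons, H275.sm_cons] at e1 e2
    refine ⟨?_, ?_⟩
    · have e3 : sm u + (P.1 + (Q.1 + sm v)) - (sm u + sm v) = 1 - (sm u + sm v) := by rw [e1]
      have e4 : sm u + (P'.1 + (Q'.1 + sm v)) - (sm u + sm v) = 1 - (sm u + sm v) := by rw [e2]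
      calc P'.1 + Q'.1 = sm u + (P'.1 + (Q'.1 + sm v)) - (sm u + sm v) := by abel
        _ = sm u + (P.1 + (Q.1 + sm v)) - (sm u + sm v) := by rw [e3, e4]
        _ = P.1 + Q.1 := by abel
    · exact (List.pairwise_cons.1 (o_append.1 ho').2.1).1 Q' (by simp)
  · rintro ⟨h1, h0⟩
    have hP' := ln_le h1 h0
    have hQ' := ln_le (P := P) (Q := Q) (P' := Q') (Q' := P') (by rw [add_comm, h1]) (Ln_symm h0)
    obtain ⟨a1, a2, a3⟩ := o_append.1 ho
    obtain ⟨b1, b2⟩ := List.pairwise_cons.1 a2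
    obtain ⟨c1, c2⟩ := List.pairwise_cons.1 b2
    have hu : ∀ x ∈ u, ∀ R : Ln K n, R.1 = (P.1 + Q.1) * R.1 → x.1 * R.1 = 0 := by
      intro x hx R hR
      rw [hR, ← mul_assoc, mul_add, a3 x hx P (by simp), a3 x hx Q (by simp), add_zero, zero_mul]
    have hv : ∀ y ∈ v, ∀ R : Ln K n, R.1 = (P.1 + Q.1) * R.1 → R.1 * y.1 = 0 := by
      intro y hy R hR
      apply Ln_symm
      rw [hR, ← mul_assoc, mul_add, Ln_symm (b1 y (by simp [hy])), Ln_symm (c1 y hy), add_zero,
        zero_mul]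
    refine (mem_Fr K).2 ⟨?_, o_append.2 ⟨a1, ?_, ?_⟩⟩
    · simpa using hl
    · refine List.pairwise_cons.2 ⟨?_, List.pairwise_cons.2 ⟨?_, c2⟩⟩
      · intro y hy
        rcases List.mem_cons.1 hy with rfl | hy
        · exact h0
        · exact hv y hy _ hP'
      · exact fun y hy => hv y hy _ hQ'
    · intro x hx y hy
      rcases List.mem_cons.1 hy with rfl | hy
      · exact hu x hx _ hP'
      rcases List.mem_cons.1 hy with rfl | hy
      · exact hu x hx _ hQ'
      · exact a3 x hx y (by simp [hy])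

lemma mem_FR {w : List (Ln K n)} : w ∈ FR s ↔ w ∈ Fr K n ∧ ∀ P ∈ w, rl s P := by
  rw [FR, Finset.mem_filter]

/-- the pairs of lines in a plane that extend a frame of real lines -/
lemma swap_FR {u v : List (Ln K n)} {P Q : Ln K n} (h : u ++ P :: Q :: v ∈ FR s)
    (P' Q' : Ln K n) :
    u ++ P' :: Q' :: v ∈ FR s ↔ (P'.1 + Q'.1 = P.1 + Q.1 ∧ P'.1 * Q'.1 = 0) ∧ rl s P' ∧ rl s Q' := by
  obtain ⟨h1, h2⟩ := mem_FR.1 h
  rw [mem_FR, swap_Fr h1]
  refine and_congr Iff.rfl ⟨fun h3 => ⟨h3 _ (by simp), h3 _ (by simp)⟩, ?_⟩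
  rintro ⟨h3, h4⟩ R hR
  rcases List.mem_append.1 hR with hR | hR
  · exact h2 R (by simp [hR])
  rcases List.mem_cons.1 hR with rfl | hR
  · exact h3
  rcases List.mem_cons.1 hR with rfl | hR
  · exact h4
  · exact h2 R (by simp [hR])

lemma FR_perm : ∀ w ∈ FR s, ∀ w', w.Perm w' → w' ∈ FR s := by
  intro w hw w' h
  obtain ⟨h1, h2⟩ := mem_FR.1 hw
  obtain ⟨h3, h4⟩ := (mem_Fr K).1 h1
  exact mem_FR.2 ⟨(mem_Fr K).2 ⟨by rw [← h.length_eq, h3], o_perm h4 h⟩,
    fun P hP => h2 P (h.mem_iff.2 hP)⟩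

end frames

section build
variable {K : Type u} [Field K] [Fintype K] [StarRing K] {ρ : K} {n : ℕ}
variable {s : Matrix (Fin n) (Fin n) K}

/-- the line of a unit vector -/
def mkL (x : Fin n → K) (hx : star x ⬝ᵥ x = 1) : Ln K n := ⟨vecMulVec x (star x), x, hx, rfl⟩

lemma RV.rl {b : Bool} {P : Ln K n} {x : Fin n → K} (h : RV s b P x) : rl s P := by
  show s * P.1.map star * star s = P.1
  have h2 : (vecMulVec x (star x)).map star = vecMulVec (star x) (star (star x)) := by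
    ext i j
    simp [vecMulVec_apply]
  rw [h.eq, h2, mul_vecMulVec, vecMulVec_mul]
  have h3 : star (star x) ᵥ* star s = star (s *ᵥ star x) := by
    rw [star_mulVec]
    rfl
  rw [h3, h.real]
  ext i j
  simp only [vecMulVec_apply, Pi.smul_apply, Pi.star_apply, smul_eq_mul, star_mul', star_sg]
  linear_combination (x i * star (x j)) * sg_sq (K := K) b

lemma dot_comb {x y : Fin n → K} (hx : star x ⬝ᵥ x = 1) (hy : star y ⬝ᵥ y = 1)
    (hxy : star x ⬝ᵥ y = 0) (p q p' q' : K) :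
    star (p • x + q • y) ⬝ᵥ (p' • x + q' • y) = star p * p' + star q * q' := by
  have hyx : star y ⬝ᵥ x = 0 := by rw [← star_dot, hxy, star_zero]
  simp only [star_add, star_smul, add_dotProduct, dotProduct_add, smul_dotProduct,
    dotProduct_smul, smul_eq_mul, hx, hy, hxy, hyx, mul_zero, mul_one, add_zero, zero_add]
  ring

lemma real_comb {b c b₁ : Bool} {P Q : Ln K n} {x y : Fin n → K} (hx : RV s b P x)
    (hy : RV s c Q y) {p q : K} (hp : star p * sg b = sg b₁ * p) (hq : star q * sg c = sg b₁ * q) :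
    s *ᵥ star (p • x + q • y) = (sg b₁ : K) • (p • x + q • y) := by
  rw [star_add, star_smul, star_smul, mulVec_add, mulVec_smul, mulVec_smul, hx.real, hy.real,
    smul_smul, smul_smul, hp, hq, smul_add, smul_smul, smul_smul]

lemma orth_vec {P Q : Ln K n} {b c : Bool} {x y : Fin n → K} (hx : RV s b P x) (hy : RV s c Q y)
    (h : P.1 * Q.1 = 0) : star x ⬝ᵥ y = 0 := by
  rw [hx.eq, hy.eq] at h
  exact dot_zero hx.unit hy.unit h

/-- two lines of the plane of two lines -/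
lemma build {b c b₁ b₂ : Bool} {P Q : Ln K n} {x y : Fin n → K} (hx : RV s b P x)
    (hy : RV s c Q y) (h0 : P.1 * Q.1 = 0) {p q p' q' : K} (hp : star p * sg b = sg b₁ * p)
    (hq : star q * sg c = sg b₁ * q) (hp' : star p' * sg b = sg b₂ * p')
    (hq' : star q' * sg c = sg b₂ * q') (u1 : star p * p + star q * q = 1)
    (u2 : star p' * p' + star q' * q' = 1) (u3 : star p * p' + star q * q' = 0)
    (c1 : p * star p + p' * star p' = 1) (c2 : q * star q + q' * star q' = 1)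
    (c3 : p * star q + p' * star q' = 0) :
    ∃ P' Q' : Ln K n, RV s b₁ P' (p • x + q • y) ∧ RV s b₂ Q' (p' • x + q' • y) ∧
      P'.1 + Q'.1 = P.1 + Q.1 ∧ P'.1 * Q'.1 = 0 := by
  have hxy := orth_vec hx hy h0
  have hc := dot_comb hx.unit hy.unit hxy
  have c4 : q * star p + q' * star p' = 0 := by
    have := congrArg star c3
    rw [star_add, star_mul', star_mul', star_star, star_star, star_zero] at this
    linear_combination this
  refine ⟨mkL (p • x + q • y) (by rw [hc, u1]), mkL (p' • x + q' • y) (by rw [hc, u2]),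
    ⟨by rw [hc, u1], rfl, real_comb hx hy hp hq⟩, ⟨by rw [hc, u2], rfl, real_comb hx hy hp' hq'⟩,
    ?_, ?_⟩
  · rw [hx.eq, hy.eq]
    ext i j
    simp only [mkL, Matrix.add_apply, vecMulVec_apply, Pi.add_apply, Pi.smul_apply, Pi.star_apply,
      smul_eq_mul, star_add, star_mul']
    linear_combination (x i * star (x j)) * c1 + (y i * star (y j)) * c2 +
      (x i * star (y j)) * c3 + (y i * star (x j)) * c4
  · show vecMulVec _ _ * vecMulVec _ _ = 0
    rw [vv_mul, hc, u3, zero_smul]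

/-- the vector of a line of a plane -/
lemma expand {b c b' : Bool} {P Q P' Q' : Ln K n} {x y x' : Fin n → K} (hx : RV s b P x)
    (hy : RV s c Q y) (hx' : RV s b' P' x') (h1 : P'.1 + Q'.1 = P.1 + Q.1)
    (h0 : P'.1 * Q'.1 = 0) : x' = (star x ⬝ᵥ x') • x + (star y ⬝ᵥ x') • y := by
  have hv : ∀ (z z' : Fin n → K), vecMulVec z (star z) *ᵥ z' = (star z ⬝ᵥ z') • z := by
    intro z z'
    rw [vecMulVec_mulVec]
    exact op_smul_eq_smul _ _
  have h2 : P'.1 *ᵥ x' = x' := by rw [hx'.eq, hv, hx'.unit, one_smul]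
  have h3 : (P.1 + Q.1) *ᵥ x' = x' := by
    conv_rhs => rw [← h2, ln_le h1 h0, ← mulVec_mulVec, h2]
  rw [add_mulVec, hx.eq, hy.eq, hv, hv] at h3
  exact h3.symm

/-- same line -/
lemma eq_of_smul {b b' : Bool} {P P' : Ln K n} {x x' : Fin n → K} (hx : RV s b P x)
    (hx' : RV s b' P' x') {p : K} (h : x' = p • x) : P' = P := by
  have h1 := hx'.unit
  rw [h, star_smul, smul_dotProduct, dotProduct_smul, hx.unit, smul_eq_mul, smul_eq_mul,
    mul_one] at h1
  apply Subtype.ext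
  rw [hx'.eq, hx.eq, h]
  ext i j
  simp only [vecMulVec_apply, Pi.smul_apply, Pi.star_apply, smul_eq_mul, star_mul']
  linear_combination (x i * star (x j)) * h1

end build

section planes
variable {K : Type u} [Field K] [Fintype K] [StarRing K] {ρ : K} {n : ℕ}
variable {s : Matrix (Fin n) (Fin n) K}

/-- existence, same types -/
lemma ex_same (h : F25 K ρ) (w : Fin n → K) {b : Bool} {P Q : Ln K n} {x y : Fin n → K}
    (hx : RV s b P x) (hy : RV s b Q y) (h0 : P.1 * Q.1 = 0) {k : K}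
    (hk : sg b * (star w ⬝ᵥ x) ^ 2 = k) (hk' : sg b * (star w ⬝ᵥ y) ^ 2 = k * ρ) :
    ∃ (P' Q' : Ln K n) (x' y' : Fin n → K), RV s (!b) P' x' ∧ RV s (!b) Q' y' ∧
      P'.1 + Q'.1 = P.1 + Q.1 ∧ P'.1 * Q'.1 = 0 ∧ sg (!b) * (star w ⬝ᵥ x') ^ 2 = k ∧
      sg (!b) * (star w ⬝ᵥ y') ^ 2 = k * ρ := by
  have h5 := five h
  have hal := al_sq h
  have hst := star_al h
  have hr := h.rho
  set a := star w ⬝ᵥ x with ha
  set d := star w ⬝ᵥ y with hd
  have hb2 := sg_sq (K := K) b
  -- the sign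
  obtain ⟨δ, hδ, hX⟩ : ∃ δ : K, (δ = 1 ∨ δ = -1) ∧
      3 * k + 3 * k * ρ + δ * (sg b * a * d) = k := by
    have h1 : (3 * k + 3 * k * ρ + sg b * a * d - k) * (3 * k + 3 * k * ρ + sg b * a * d - k * ρ)
        = 0 := by
      linear_combination (sg b * d ^ 2) * hk + k * hk' + 6 * k ^ 2 * hr +
        (4 * k ^ 2 * ρ + (1 + ρ) * k * (sg b * a * d)) * h5
    rcases mul_eq_zero.1 h1 with h2 | h2
    · exact ⟨1, Or.inl rfl, by linear_combination h2⟩
    · refine ⟨-1, Or.inr rfl, ?_⟩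
      linear_combination (k + k * ρ) * h5 - h2
  have hδ2 : δ * δ = 1 := by rcases hδ with rfl | rfl <;> ring
  have hδs : star δ = δ := by rcases hδ with rfl | rfl <;> simp
  obtain ⟨P', Q', h1, h2, h3, h4⟩ := build (b₁ := !b) (b₂ := !b) (p := al ρ) (q := δ * al ρ)
    (p' := al ρ) (q' := -(δ * al ρ)) hx hy h0
    (by rw [hst, sg_not]; ring)
    (by rw [star_mul', hst, hδs, sg_not]; ring)
    (by rw [hst, sg_not]; ring)
    (by rw [star_neg, star_mul', hst, hδs, sg_not]; ring)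
    (by rw [star_mul', hst, hδs]; linear_combination -2 * hal - al ρ * al ρ * hδ2 - h5)
    (by rw [star_neg, star_mul', hst, hδs]; linear_combination -2 * hal - al ρ * al ρ * hδ2 - h5)
    (by rw [star_mul', hst, hδs]; linear_combination al ρ * al ρ * hδ2)
    (by rw [hst]; linear_combination -2 * hal - h5)
    (by rw [star_neg, star_mul', hst, hδs]; linear_combination -2 * al ρ * al ρ * hδ2 - 2 * hal - h5)
    (by rw [star_neg, star_mul', hst, hδs]; ring)
  refine ⟨P', Q', _, _, h1, h2, h3, h4, ?_, ?_⟩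
  · rw [dotProduct_add, dotProduct_smul, dotProduct_smul, ← ha, ← hd, sg_not]
    simp only [smul_eq_mul]
    linear_combination -sg b * (a ^ 2 + 2 * δ * a * d + δ ^ 2 * d ^ 2) * hal - 2 * hk -
      2 * sg b * d ^ 2 * hδ2 - 2 * hk' + hX - (k + k * ρ + δ * (sg b * a * d)) * h5
  · rw [dotProduct_add, dotProduct_smul, dotProduct_smul, ← ha, ← hd, sg_not]
    simp only [smul_eq_mul]
    linear_combination -sg b * (a ^ 2 - 2 * δ * a * d + δ ^ 2 * d ^ 2) * hal - 2 * hk -
      2 * sg b * d ^ 2 * hδ2 - 2 * hk' + 4 * hX - (2 * k + 3 * k * ρ) * h5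

end planes

end

end Vale.Agent.P240.R2.H179
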