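import Vale.Agent.P240.R2.H179.U5a2

/-!
The plane condition for the hermitian space over the field with `25` elements with a real form.
-/

set_option autoImplicit false
set_option linter.all false

namespace Vale.Agent.P240.R2.H179

open Matrix Vale.Agent.P240.R2.AS Vale.Agent.P240.R2.H38 Vale.Agent.P240.R2.H584
open Vale.Agent.P240.R2.H315
open Vale.Agent.P240.R2.H275 (Ln_idem Ln_star Ln_ne Ln_symm o_append o_one o_perm vv_mul)
open scoped Classical

universe u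

noncomputable section

section planes
variable {K : Type u} [Field K] [Fintype K] [StarRing K] {ρ : K} {n : ℕ}
variable {s : Matrix (Fin n) (Fin n) K}

/-- the number `sg a d` for a mixed pair -/
lemma mixed_num (h : F25 K ρ) {σ a d : K} (hσ : σ * σ = 1) (ha : σ * a ^ 2 = 1)
    (hd : -σ * d ^ 2 = ρ * ρ) :
    al ρ * (σ * a * d) = 3 * (ρ - 2) ∨ al ρ * (σ * a * d) = - (3 * (ρ - 2)) := by
  have h5 := five h
  have hal := al_sq h
  have hr := h.rho
  have h1 : (al ρ * (σ * a * d) - 3 * (ρ - 2)) * (al ρ * (σ * a * d) + 3 * (ρ - 2)) = 0 := by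
    linear_combination (σ * a * d) ^ 2 * hal + (2 * σ * d ^ 2) * ha - 2 * hd - 11 * hr +
      (5 * ρ - 5) * h5
  rcases mul_eq_zero.1 h1 with h2 | h2
  · left; linear_combination h2
  · right; linear_combination h2

/-- existence, different types -/
lemma ex_mixed (h : F25 K ρ) (w : Fin n → K) {b : Bool} {P Q : Ln K n} {x y : Fin n → K}
    (hx : RV s b P x) (hy : RV s (!b) Q y) (h0 : P.1 * Q.1 = 0)
    (hk : sg b * (star w ⬝ᵥ x) ^ 2 = 1) (hk' : sg (!b) * (star w ⬝ᵥ y) ^ 2 = ρ * ρ) :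
    ∃ (P' Q' : Ln K n) (x' y' : Fin n → K), RV s b P' x' ∧ RV s (!b) Q' y' ∧
      P'.1 + Q'.1 = P.1 + Q.1 ∧ P'.1 * Q'.1 = 0 ∧ sg b * (star w ⬝ᵥ x') ^ 2 = ρ * ρ ∧
      sg (!b) * (star w ⬝ᵥ y') ^ 2 = 1 := by
  have h5 := five h
  have hal := al_sq h
  have hst := star_al h
  have hr := h.rho
  have hb2 := sg_sq (K := K) b
  have h2s : star (2 : K) = 2 := star_ofNat 2
  rw [sg_not] at hk'
  set a := star w ⬝ᵥ x with ha
  set d := star w ⬝ᵥ y with hd
  obtain ⟨δ, hδ, hX⟩ : ∃ δ : K, (δ = 1 ∨ δ = -1) ∧ δ * (al ρ * (sg b * a * d)) = 3 * (ρ - 2) := by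
    rcases mixed_num h hb2 hk hk' with h2 | h2
    · exact ⟨1, Or.inl rfl, by rw [h2]; ring⟩
    · exact ⟨-1, Or.inr rfl, by rw [h2]; ring⟩
  have hδ2 : δ * δ = 1 := by rcases hδ with rfl | rfl <;> ring
  have hδs : star δ = δ := by rcases hδ with rfl | rfl <;> simp
  obtain ⟨P', Q', h1, h2, h3, h4⟩ := build (b₁ := b) (b₂ := !b) (p := 2) (q := 2 * δ * al ρ)
    (p' := 2 * al ρ) (q' := 2 * δ) hx hy h0
    (by rw [h2s]; ring)
    (by rw [star_mul', star_mul', hst, hδs, h2s, sg_not]; ring)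
    (by rw [star_mul', hst, h2s, sg_not]; ring)
    (by rw [star_mul', hδs, h2s, sg_not]; ring)
    (by rw [star_mul', star_mul', hst, hδs, h2s]
        linear_combination (-4 * δ * δ) * hal - 8 * hδ2 - h5)
    (by rw [star_mul', star_mul', hst, hδs, h2s]
        linear_combination -4 * hal + 4 * hδ2 - h5)
    (by simp only [star_mul', hst, hδs, h2s]
        linear_combination (-4 * al ρ) * hδ2)
    (by rw [star_mul', hst, h2s]; linear_combination -4 * hal - h5)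
    (by simp only [star_mul', hst, hδs, h2s]
        linear_combination (-4 * δ * δ) * hal - 4 * hδ2 - h5)
    (by simp only [star_mul', hst, hδs, h2s]; ring)
  refine ⟨P', Q', _, _, h1, h2, h3, h4, ?_, ?_⟩
  · rw [dotProduct_add, dotProduct_smul, dotProduct_smul, ← ha, ← hd]
    simp only [smul_eq_mul]
    linear_combination 4 * hk + 8 * hX + (4 * sg b * d ^ 2 * δ * δ) * hal +
      (8 * sg b * d ^ 2) * hδ2 - 8 * hk' - 9 * hr + (3 * ρ - 7) * h5
  · rw [dotProduct_add, dotProduct_smul, dotProduct_smul, ← ha, ← hd, sg_not]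
    simp only [smul_eq_mul]
    linear_combination (-4 * sg b * a ^ 2) * hal - 8 * hk - 8 * hX - (4 * sg b * d ^ 2) * hδ2 +
      4 * hk' + 4 * hr - (4 * ρ - 7) * h5

/-- uniqueness, same types -/
lemma uniq_same (h : F25 K ρ) (hs : s ∈ unitaryGroup (Fin n) K) {b : Bool}
    {P Q P' Q' : Ln K n} {x y x' : Fin n → K} (hx : RV s b P x) (hy : RV s b Q y)
    (hx' : RV s b P' x') (h0 : P.1 * Q.1 = 0) (h1 : P'.1 + Q'.1 = P.1 + Q.1)
    (h0' : P'.1 * Q'.1 = 0) : P' = P ∨ P' = Q := by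
  have h5 := five h
  have hε : star (sg b : K) * sg b = 1 := by rw [star_sg, sg_sq]
  have hp := dot_real hs hε hx.real hx'.real
  have hq := dot_real hs hε hy.real hx'.real
  have hxy := orth_vec hx hy h0
  have he := expand hx hy hx' h1 h0'
  set p := star x ⬝ᵥ x' with hpd
  set q := star y ⬝ᵥ x' with hqd
  have hu := hx'.unit
  rw [he, dot_comb hx.unit hy.unit hxy, hp, hq] at hu
  rcases sq_cases h hp with hp2 | hp2 | hp2
  · right
    have hp0 : p = 0 := mul_self_eq_zero.1 hp2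
    rw [hp0, zero_smul, zero_add] at he
    exact eq_of_smul hy hx' he
  · left
    have hq0 : q = 0 := by
      apply mul_self_eq_zero.1
      linear_combination hu - hp2
    rw [hq0, zero_smul, add_zero] at he
    exact eq_of_smul hx hx' he
  · exfalso
    rcases sq_cases h hq with hq2 | hq2 | hq2
    · apply two_ne h
      linear_combination 4 * hu - 4 * hp2 - 4 * hq2 - 2 * h5
    · apply two_ne h
      linear_combination 3 * hu - 3 * hp2 - 3 * hq2 - 2 * h5
    · apply two_ne h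
      linear_combination hu - hp2 - hq2 - h5

/-- uniqueness, different types -/
lemma uniq_mixed (h : F25 K ρ) (hs : s ∈ unitaryGroup (Fin n) K) (w : Fin n → K) {b : Bool}
    {P Q P' Q' : Ln K n} {x y x' : Fin n → K} (hx : RV s b P x) (hy : RV s (!b) Q y)
    (hx' : RV s b P' x') (h0 : P.1 * Q.1 = 0) (h1 : P'.1 + Q'.1 = P.1 + Q.1)
    (h0' : P'.1 * Q'.1 = 0) (hk : sg b * (star w ⬝ᵥ x) ^ 2 = 1)
    (hk' : sg (!b) * (star w ⬝ᵥ y) ^ 2 = ρ * ρ) (hk2 : sg b * (star w ⬝ᵥ x') ^ 2 = 1) :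
    P' = P := by
  have h5 := five h
  have hal := al_sq h
  have hst := star_al h
  have hr := h.rho
  have hb2 := sg_sq (K := K) b
  rw [sg_not] at hk'
  have hxy := orth_vec hx hy h0
  have he := expand hx hy hx' h1 h0'
  have hp := dot_real hs (by rw [star_sg, sg_sq]) hx.real hx'.real
  have hq : star (al ρ * (star y ⬝ᵥ x')) = al ρ * (star y ⬝ᵥ x') := by
    have hy2 : s *ᵥ star (al ρ • y) = (sg b : K) • (al ρ • y) := by
      rw [star_smul, mulVec_smul, hy.real, smul_smul, smul_smul, hst, sg_not]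
      congr 1
      ring
    have h2 := dot_real hs (by rw [star_sg, sg_sq]) hy2 hx'.real
    rw [star_smul, smul_dotProduct, smul_eq_mul, hst] at h2
    have h3 : star (al ρ * (star y ⬝ᵥ x')) = - star (-al ρ * (star y ⬝ᵥ x')) := by
      rw [neg_mul, star_neg, neg_neg]
    rw [h3, h2]
    ring
  set p := star x ⬝ᵥ x' with hpd
  set r := star y ⬝ᵥ x' with hrd
  have hu := hx'.unit
  rw [he, dot_comb hx.unit hy.unit hxy, hp] at hu
  have hrs : star r = - r := by
    have hal0 : al ρ ≠ 0 := by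
      intro h6
      apply two_ne h
      rw [← hal, h6, mul_zero]
    have h7 : al ρ * (star r + r) = 0 := by
      rw [star_mul', hst] at hq
      linear_combination -hq
    rcases mul_eq_zero.1 h7 with h8 | h8
    · exact absurd h8 hal0
    · exact eq_neg_of_add_eq_zero_left h8
  rw [hrs] at hu
  have hr2 : (al ρ * r) * (al ρ * r) = 2 * (r * r) := by
    linear_combination (r * r) * hal
  set q := al ρ * r with hqd
  rcases sq_cases h hq with hq2 | hq2 | hq2
  · have hq0 : q = 0 := mul_self_eq_zero.1 hq2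
    have hr0 : r = 0 := by
      have h8 : r * r = 0 := by linear_combination -3 * hr2 + 3 * hq2 - (r * r) * h5
      exact mul_self_eq_zero.1 h8
    rw [hr0, zero_smul, add_zero] at he
    exact eq_of_smul hx hx' he
  · exfalso
    rcases sq_cases h hp with hp2 | hp2 | hp2
    · apply two_ne h
      linear_combination -4 * (2 * hu + hq2 - hr2 - 2 * hp2) - 2 * h5
    · apply two_ne h
      linear_combination -2 * (2 * hu + hq2 - hr2 - 2 * hp2)
    · set a := star w ⬝ᵥ x with ha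
      set d := star w ⬝ᵥ y with hd
      have hc : sg b * (p * a + r * d) ^ 2 = 1 := by
        rw [← hk2]
        conv_rhs => rw [he, dotProduct_add, dotProduct_smul, dotProduct_smul, ← ha, ← hd]
        simp only [smul_eq_mul]
      have hm : p * q = 2 ∨ p * q = -2 := by
        have h8 : (p * q - 2) * (p * q + 2) = 0 := by
          linear_combination (p * p) * hq2 + hp2
        rcases mul_eq_zero.1 h8 with h9 | h9
        · left; linear_combination h9
        · right; linear_combination h9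
      apply rho_ne_two h
      rcases mixed_num h hb2 hk hk' with h2 | h2 <;> rcases hm with hm | hm
      · linear_combination (2 * hc - (2 * p ^ 2) * hk - 2 * hp2 + 2 * (sg b * p * r * a * d) * hal -
          2 * p * q * h2 - 2 * (3 * (ρ - 2)) * hm + 2 * r ^ 2 * hk' + ρ * ρ * (hq2 - hr2) + hr) -
          (2 * ρ - 3) * h5
      · linear_combination 3 * (2 * hc - (2 * p ^ 2) * hk - 2 * hp2 +
          2 * (sg b * p * r * a * d) * hal -
          2 * p * q * h2 - 2 * (3 * (ρ - 2)) * hm + 2 * r ^ 2 * hk' + ρ * ρ * (hq2 - hr2) + hr) +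
          (8 * ρ - 19) * h5
      · linear_combination 3 * (2 * hc - (2 * p ^ 2) * hk - 2 * hp2 +
          2 * (sg b * p * r * a * d) * hal -
          2 * p * q * h2 + 2 * (3 * (ρ - 2)) * hm + 2 * r ^ 2 * hk' + ρ * ρ * (hq2 - hr2) + hr) +
          (8 * ρ - 19) * h5
      · linear_combination (2 * hc - (2 * p ^ 2) * hk - 2 * hp2 + 2 * (sg b * p * r * a * d) * hal -
          2 * p * q * h2 + 2 * (3 * (ρ - 2)) * hm + 2 * r ^ 2 * hk' + ρ * ρ * (hq2 - hr2) + hr) -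
          (2 * ρ - 3) * h5
  · exfalso
    rcases sq_cases h hp with hp2 | hp2 | hp2
    · apply two_ne h
      linear_combination -2 * (2 * hu + hq2 - hr2 - 2 * hp2) - 2 * h5
    · apply two_ne h
      linear_combination -3 * (2 * hu + hq2 - hr2 - 2 * hp2) - 2 * h5
    · apply two_ne h
      linear_combination 2 * hu + hq2 - hr2 - 2 * hp2

/-- two sets with at most one element -/
lemma card_eq_one {X : Type*} {A B : Finset X} (hA : ∀ x ∈ A, ∀ y ∈ A, x = y)
    (hB : ∀ x ∈ B, ∀ y ∈ B, x = y) (h : A.Nonempty ↔ B.Nonempty) : A.card = B.card := by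
  have key : ∀ C : Finset X, (∀ x ∈ C, ∀ y ∈ C, x = y) → C.Nonempty → C.card = 1 := by
    intro C hC ⟨x, hx⟩
    rw [Finset.card_eq_one]
    exact ⟨x, Finset.eq_singleton_iff_unique_mem.2 ⟨hx, fun y hy => hC y hy x hx⟩⟩
  rcases Finset.eq_empty_or_nonempty A with h1 | h1
  · have h2 : B = ∅ := by
      by_contra h3
      have := h.2 (Finset.nonempty_iff_ne_empty.2 h3)
      rw [h1] at this
      exact Finset.not_nonempty_empty this
    rw [h1, h2]
  · rw [key A hA h1, key B hB (h.1 h1)]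

/-- the data of a letter -/
lemma of_ltr (h : F25 K ρ) (hs : s ∈ unitaryGroup (Fin n) K) (hr : RForm s) (w : Fin n → K)
    {P : Ln K n} (hP : rl s P) {b : Bool} {j : Fin 3} (hl : ltr ρ w s P = some (b, j)) :
    ∃ x, RV s b P x ∧ sg b * (star w ⬝ᵥ x) ^ 2 = ρ ^ (j : ℕ) := by
  obtain ⟨b', x, hx⟩ := exists_RV h hs hP
  obtain ⟨rfl, h2⟩ := (ltr_eq h hs hr w hx b j).1 hl
  exact ⟨x, hx, h2⟩

/-- the pairs of lines with two letters -/
def PL (ρ : K) (w : Fin n → K) (s : Matrix (Fin n) (Fin n) K) (u v : List (Ln K n)) (a c : Lt) :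
    Finset (Ln K n × Ln K n) :=
  Finset.univ.filter fun x : Ln K n × Ln K n => u ++ x.1 :: x.2 :: v ∈ FR s ∧
    ltr ρ w s x.1 = some a ∧ ltr ρ w s x.2 = some c

lemma mem_PL {w : Fin n → K} {u v : List (Ln K n)} {a c : Lt} {P Q : Ln K n} :
    (P, Q) ∈ PL ρ w s u v a c ↔ u ++ P :: Q :: v ∈ FR s ∧ ltr ρ w s P = some a ∧
      ltr ρ w s Q = some c := by
  rw [PL, Finset.mem_filter]
  exact ⟨fun h => h.2, fun h => ⟨Finset.mem_univ _, h⟩⟩

/-- the second line is determined by the first -/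
lemma snd_eq {P Q P' Q' : Ln K n} (h1 : P'.1 + Q'.1 = P.1 + Q.1) (h : P' = P) : Q' = Q := by
  subst h
  exact Subtype.ext (add_left_cancel h1)

/-- existence, same types -/
lemma PL_same (h : F25 K ρ) (hs : s ∈ unitaryGroup (Fin n) K) (hr : RForm s) (w : Fin n → K)
    (u v : List (Ln K n)) (b : Bool) {i j : Fin 3} (hij : (j : ℕ) = i + 1)
    (hne : (PL ρ w s u v (b, i) (b, j)).Nonempty) : (PL ρ w s u v (!b, i) (!b, j)).Nonempty := by
  obtain ⟨⟨P, Q⟩, hPQ⟩ := hne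
  obtain ⟨h1, h2, h3⟩ := mem_PL.1 hPQ
  obtain ⟨⟨h4, h5⟩, h6, h7⟩ := (swap_FR h1 P Q).1 h1
  obtain ⟨x, hx, hx2⟩ := of_ltr h hs hr w h6 h2
  obtain ⟨y, hy, hy2⟩ := of_ltr h hs hr w h7 h3
  obtain ⟨P', Q', x', y', g1, g2, g3, g4, g5, g6⟩ := ex_same h w hx hy h5 hx2
    (by rw [hy2, hij, pow_succ])
  refine ⟨(P', Q'), mem_PL.2 ⟨(swap_FR h1 P' Q').2 ⟨⟨g3, g4⟩, g1.rl, g2.rl⟩, ?_, ?_⟩⟩
  · exact (ltr_eq h hs hr w g1 _ _).2 ⟨rfl, g5⟩
  · exact (ltr_eq h hs hr w g2 _ _).2 ⟨rfl, by rw [g6, hij, pow_succ]⟩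

/-- existence, different types -/
lemma PL_mixed (h : F25 K ρ) (hs : s ∈ unitaryGroup (Fin n) K) (hr : RForm s) (w : Fin n → K)
    (u v : List (Ln K n)) (b : Bool) (hne : (PL ρ w s u v (b, 0) (!b, 2)).Nonempty) :
    (PL ρ w s u v (!b, 0) (b, 2)).Nonempty := by
  obtain ⟨⟨P, Q⟩, hPQ⟩ := hne
  obtain ⟨h1, h2, h3⟩ := mem_PL.1 hPQ
  obtain ⟨⟨h4, h5⟩, h6, h7⟩ := (swap_FR h1 P Q).1 h1
  obtain ⟨x, hx, hx2⟩ := of_ltr h hs hr w h6 h2
  obtain ⟨y, hy, hy2⟩ := of_ltr h hs hr w h7 h3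
  have e2 : ρ ^ ((2 : Fin 3) : ℕ) = ρ * ρ := by
    show ρ ^ 2 = ρ * ρ
    ring
  obtain ⟨P', Q', x', y', g1, g2, g3, g4, g5, g6⟩ := ex_mixed h w hx hy h5
    (by rw [hx2]; exact pow_zero ρ) (by rw [hy2, e2])
  refine ⟨(Q', P'), mem_PL.2 ⟨(swap_FR h1 Q' P').2 ⟨⟨by rw [add_comm, g3], Ln_symm g4⟩, g2.rl,
    g1.rl⟩, ?_, ?_⟩⟩
  · exact (ltr_eq h hs hr w g2 _ _).2 ⟨rfl, by rw [g6]; exact (pow_zero ρ).symm⟩
  · exact (ltr_eq h hs hr w g1 _ _).2 ⟨rfl, by rw [g5, e2]⟩

/-- uniqueness, same types -/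
lemma PL_same_uniq (h : F25 K ρ) (hs : s ∈ unitaryGroup (Fin n) K) (hr : RForm s) (w : Fin n → K)
    (u v : List (Ln K n)) (b : Bool) {i j : Fin 3} (hij : i ≠ j) :
    ∀ x ∈ PL ρ w s u v (b, i) (b, j), ∀ y ∈ PL ρ w s u v (b, i) (b, j), x = y := by
  rintro ⟨P', Q'⟩ hx ⟨P, Q⟩ hy
  obtain ⟨h1, h2, h3⟩ := mem_PL.1 hy
  obtain ⟨h1', h2', h3'⟩ := mem_PL.1 hx
  obtain ⟨⟨h4, h5⟩, h6, h7⟩ := (swap_FR h1 P Q).1 h1
  obtain ⟨⟨h4', h5'⟩, h6', h7'⟩ := (swap_FR h1 P' Q').1 h1'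
  obtain ⟨x, hx, hx2⟩ := of_ltr h hs hr w h6 h2
  obtain ⟨y, hy, hy2⟩ := of_ltr h hs hr w h7 h3
  obtain ⟨x', hx', hx2'⟩ := of_ltr h hs hr w h6' h2'
  have hPP : P' = P := by
    rcases uniq_same h hs hx hy hx' h5 h4' h5' with h8 | h8
    · exact h8
    · exfalso
      subst h8
      rw [h3] at h2'
      have := Option.some.inj h2'
      rw [Prod.mk.injEq] at this
      exact hij this.2.symm
  rw [hPP, snd_eq h4' hPP]

/-- uniqueness, different types -/
lemma PL_mixed_uniq (h : F25 K ρ) (hs : s ∈ unitaryGroup (Fin n) K) (hr : RForm s)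
    (w : Fin n → K) (u v : List (Ln K n)) (b : Bool) :
    ∀ x ∈ PL ρ w s u v (b, 0) (!b, 2), ∀ y ∈ PL ρ w s u v (b, 0) (!b, 2), x = y := by
  rintro ⟨P', Q'⟩ hx ⟨P, Q⟩ hy
  obtain ⟨h1, h2, h3⟩ := mem_PL.1 hy
  obtain ⟨h1', h2', h3'⟩ := mem_PL.1 hx
  obtain ⟨⟨h4, h5⟩, h6, h7⟩ := (swap_FR h1 P Q).1 h1
  obtain ⟨⟨h4', h5'⟩, h6', h7'⟩ := (swap_FR h1 P' Q').1 h1'
  obtain ⟨x, hx, hx2⟩ := of_ltr h hs hr w h6 h2
  obtain ⟨y, hy, hy2⟩ := of_ltr h hs hr w h7 h3
  obtain ⟨x', hx', hx2'⟩ := of_ltr h hs hr w h6' h2'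
  have e2 : ρ ^ ((2 : Fin 3) : ℕ) = ρ * ρ := by
    show ρ ^ 2 = ρ * ρ
    ring
  have hPP : P' = P := uniq_mixed h hs w hx hy hx' h5 h4' h5' (by rw [hx2]; exact pow_zero ρ)
    (by rw [hy2, e2]) (by rw [hx2']; exact pow_zero ρ)
  rw [hPP, snd_eq h4' hPP]

/-- **the plane condition** -/
theorem planeC (h : F25 K ρ) (hs : s ∈ unitaryGroup (Fin n) K) (hr : RForm s) (w : Fin n → K) :
    PlaneC (FR s) (ltr ρ w s) where
  perm := FR_perm
  s01 u v := card_eq_one (PL_same_uniq h hs hr w u v false (i := 0) (j := 1) (by decide))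
    (PL_same_uniq h hs hr w u v true (i := 0) (j := 1) (by decide))
    ⟨PL_same h hs hr w u v false (i := 0) (j := 1) rfl,
      PL_same h hs hr w u v true (i := 0) (j := 1) rfl⟩
  s12 u v := card_eq_one (PL_same_uniq h hs hr w u v false (i := 1) (j := 2) (by decide))
    (PL_same_uniq h hs hr w u v true (i := 1) (j := 2) (by decide))
    ⟨PL_same h hs hr w u v false (i := 1) (j := 2) rfl,
      PL_same h hs hr w u v true (i := 1) (j := 2) rfl⟩
  s02 u v := card_eq_one (PL_mixed_uniq h hs hr w u v false) (PL_mixed_uniq h hs hr w u v true)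
    ⟨PL_mixed h hs hr w u v false, PL_mixed h hs hr w u v true⟩

end planes

/-- **(U5a)** -/
theorem stmtU5a : StmtU5a.{u} := fun K _ _ _ ρ h n w s hs hr => planeC h hs hr w

end

end Vale.Agent.P240.R2.H179
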